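import Vale.Agent.P348.Final

namespace Vale.Agent.Results.P348.HaldaneGap

open Vale.Agent.P348

theorem result :
    (∃ S : Fin 3 → Matrix (Fin 3) (Fin 3) ℂ, IsSpinOne S) ∧
    ∀ S : Fin 3 → Matrix (Fin 3) (Fin 3) ℂ, IsSpinOne S →
      (∀ L : ℕ, 2 ≤ L →
        E0 (ham S L) ∈ evals (ham S L) ∧ E1 (ham S L) ∈ evals (ham S L) ∧
        E0 (ham S L) < E1 (ham S L) ∧
        ∀ x ∈ evals (ham S L), x = E0 (ham S L) ∨ E1 (ham S L) ≤ x) ∧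
      (∀ L : ℕ, Even L → 32 ≤ L → 1 / 100 ≤ gap (ham S L)) ∧
      (∃ c : ℝ, 0 < c ∧ ∀ L : ℕ, Even L → 4 ≤ L → c ≤ gap (ham S L)) ∧
      ((1 / 100 : ℝ) : EReal) ≤
        Filter.liminf (fun k : ℕ => ((gap (ham S (2 * k)) : ℝ) : EReal)) Filter.atTop :=
  ⟨⟨cart, cart_isSpinOne⟩, fun _ hS =>
    ⟨fun _ hL => levels hS hL, fun _ he hL => gap_large hS he hL, gap_uniform hS, gap_liminf hS⟩⟩

end Vale.Agent.Results.P348.HaldaneGap
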